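import Mathlib
import Vale.Agent.Lib.P057.Main

namespace Vale.Agent.Results.P057.A_main

/-- For every `c > 6 (log₂ (12/7))^(1/3)` (about 5.518) and all large `N` there is a subset of
`{1, …, N}` of size at least `N 2^(-c (log₂ N)^(1/3))` without a five-term arithmetic progression.
The previous constant (Rankin, O'Bryant) is `6`. -/
theorem result (c : ℝ) (hc : 6 * (Real.logb 2 (12 / 7)) ^ ((1 : ℝ) / 3) < c) :
    ∃ N₀ : ℕ, ∀ N : ℕ, N₀ ≤ N → ∃ A : Finset ℕ, A ⊆ Finset.Icc 1 N ∧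
      (∀ a d : ℕ, 0 < d → ¬ ∀ i < 5, a + i * d ∈ A) ∧
      (N : ℝ) * 2 ^ (-(c * (Real.logb 2 N) ^ ((1 : ℝ) / 3))) ≤ A.card :=
  Vale.Agent.Lib.P057.main_bound c hc

end Vale.Agent.Results.P057.A_main
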