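import Vale.Agent.Lib.P057R3.Final

namespace Vale.Agent.Results.P057.A_r3

open Real in
/-- For every `c` above the explicit constant `c₀ = 2 √((2/3) log₂(80000/12659))` (about 2.6632),
which is smaller than the constant `2 √(log₂ (24/7))` (about 2.6665) of
Elsholtz-Hunter-Proske-Sauermann, and all large `N`, there is a subset of `{1, …, N}` of size at
least `N 2^(-c √(log₂ N))` without a three-term arithmetic progression. -/
theorem result :
    2 * √((2 / 3) * Real.logb 2 (80000 / 12659)) < 2 * √(Real.logb 2 (24 / 7)) ∧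
    ∀ c : ℝ, 2 * √((2 / 3) * Real.logb 2 (80000 / 12659)) < c →
      ∃ N₀ : ℕ, ∀ N : ℕ, N₀ ≤ N → ∃ A : Finset ℕ, A ⊆ Finset.Icc 1 N ∧
        (∀ a d : ℕ, 0 < d → ¬ ∀ i < 3, a + i * d ∈ A) ∧
        (N : ℝ) * 2 ^ (-(c * √(Real.logb 2 N))) ≤ A.card := by
  have e : 1 / Vale.Agent.Lib.P057R3.dens = (80000 / 12659 : ℝ) := by
    unfold Vale.Agent.Lib.P057R3.dens
    norm_num
  constructor
  · apply mul_lt_mul_of_pos_left _ (by norm_num)
    apply Real.sqrt_lt_sqrt
    · apply mul_nonneg (by norm_num)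
      apply Real.logb_nonneg (by norm_num) (by norm_num)
    · have h1 : Real.logb 2 (((80000 / 12659 : ℝ)) ^ 2) < Real.logb 2 (((24 / 7 : ℝ)) ^ 3) :=
        Real.logb_lt_logb (by norm_num) (by norm_num) (by norm_num)
      rw [Real.logb_pow, Real.logb_pow] at h1
      push_cast at h1
      linarith
  · intro c hc
    apply Vale.Agent.Lib.P057R3.main_bound c
    rw [e]
    have e2 : 2 * (Real.logb 2 (80000 / 12659) / 3) = (2 / 3) * Real.logb 2 (80000 / 12659) := by ring
    rw [e2]
    exact hc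

end Vale.Agent.Results.P057.A_r3
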