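import Vale.Agent.Lib.P057R4.Final

namespace Vale.Agent.Results.P057.A_r4

/-- For every `c > 2 √(2 log₂ (9/5))` (about 2.605) and all large `N` there is a subset of
`{1, …, N}` of size at least `N 2^(-c √(log₂ N))` without a four-term arithmetic progression. -/
theorem result (c : ℝ) (hc : 2 * √(2 * Real.logb 2 (9 / 5)) < c) :
    ∃ N₀ : ℕ, ∀ N : ℕ, N₀ ≤ N → ∃ A : Finset ℕ, A ⊆ Finset.Icc 1 N ∧
      (∀ a d : ℕ, 0 < d → ¬ ∀ i < 4, a + i * d ∈ A) ∧
      (N : ℝ) * 2 ^ (-(c * √(Real.logb 2 N))) ≤ A.card :=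
  Vale.Agent.Lib.P057R4.main_bound c hc

end Vale.Agent.Results.P057.A_r4
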