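import Vale.Agent.Results.P057.A_allk
import Vale.Agent.Results.P057.A_main
import Vale.Agent.Results.P057.A_r3
import Vale.Agent.Results.P057.A_r4

/-!
Lower bounds for progression-free sets, all together: every `k ≥ 5`, and the sharper constants for
`k = 3, 4, 5`.
-/

namespace Vale.Agent.Results.P057.A0_master

/-- The four lower bounds for `r_k(N)`. -/
theorem result :
    (∀ (n k : ℕ), 3 ≤ n → 2 ^ (n - 1) < k → ∀ c : ℝ,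
      (n : ℝ) * 2 ^ (((n : ℝ) - 1) / 2) * (Real.logb 2 (12 / 7)) ^ ((1 : ℝ) / n) < c →
      ∃ N₀ : ℕ, ∀ N : ℕ, N₀ ≤ N → ∃ A : Finset ℕ, A ⊆ Finset.Icc 1 N ∧
        (∀ a d : ℕ, 0 < d → ¬ ∀ i < k, a + i * d ∈ A) ∧
        (N : ℝ) * 2 ^ (-(c * (Real.logb 2 N) ^ ((1 : ℝ) / n))) ≤ A.card) ∧
    (∀ c : ℝ, 6 * (Real.logb 2 (12 / 7)) ^ ((1 : ℝ) / 3) < c →
      ∃ N₀ : ℕ, ∀ N : ℕ, N₀ ≤ N → ∃ A : Finset ℕ, A ⊆ Finset.Icc 1 N ∧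
        (∀ a d : ℕ, 0 < d → ¬ ∀ i < 5, a + i * d ∈ A) ∧
        (N : ℝ) * 2 ^ (-(c * (Real.logb 2 N) ^ ((1 : ℝ) / 3))) ≤ A.card) ∧
    (2 * √((2 / 3) * Real.logb 2 (80000 / 12659)) < 2 * √(Real.logb 2 (24 / 7)) ∧
      ∀ c : ℝ, 2 * √((2 / 3) * Real.logb 2 (80000 / 12659)) < c →
        ∃ N₀ : ℕ, ∀ N : ℕ, N₀ ≤ N → ∃ A : Finset ℕ, A ⊆ Finset.Icc 1 N ∧
          (∀ a d : ℕ, 0 < d → ¬ ∀ i < 3, a + i * d ∈ A) ∧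
          (N : ℝ) * 2 ^ (-(c * √(Real.logb 2 N))) ≤ A.card) ∧
    (∀ c : ℝ, 2 * √(2 * Real.logb 2 (9 / 5)) < c →
      ∃ N₀ : ℕ, ∀ N : ℕ, N₀ ≤ N → ∃ A : Finset ℕ, A ⊆ Finset.Icc 1 N ∧
        (∀ a d : ℕ, 0 < d → ¬ ∀ i < 4, a + i * d ∈ A) ∧
        (N : ℝ) * 2 ^ (-(c * √(Real.logb 2 N))) ≤ A.card) :=
  ⟨fun n k hn hk c hc => Vale.Agent.Results.P057.A_allk.result n k hn hk c hc,
    fun c hc => Vale.Agent.Results.P057.A_main.result c hc,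
    Vale.Agent.Results.P057.A_r3.result,
    fun c hc => Vale.Agent.Results.P057.A_r4.result c hc⟩

end Vale.Agent.Results.P057.A0_master
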