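import Mathlib
import Vale.Agent.Lib.P057.Final

namespace Vale.Agent.Results.P057.A_allk

/-- For `n ≥ 3`, every `k > 2^(n-1)` (in particular every `k ≥ 5` with `n = ⌈log₂ k⌉`) and every
`c > n 2^((n-1)/2) (log₂ (12/7))^(1/n)`, for all large `N` there is a subset of `{1, …, N}` of size
at least `N 2^(-c (log₂ N)^(1/n))` without a `k`-term arithmetic progression.
The previous constant (Rankin, O'Bryant) is `n 2^((n-1)/2)`. -/
theorem result (n k : ℕ) (hn : 3 ≤ n) (hk : 2 ^ (n - 1) < k) (c : ℝ)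
    (hc : (n : ℝ) * 2 ^ (((n : ℝ) - 1) / 2) * (Real.logb 2 (12 / 7)) ^ ((1 : ℝ) / n) < c) :
    ∃ N₀ : ℕ, ∀ N : ℕ, N₀ ≤ N → ∃ A : Finset ℕ, A ⊆ Finset.Icc 1 N ∧
      (∀ a d : ℕ, 0 < d → ¬ ∀ i < k, a + i * d ∈ A) ∧
      (N : ℝ) * 2 ^ (-(c * (Real.logb 2 N) ^ ((1 : ℝ) / n))) ≤ A.card :=
  Vale.Agent.Lib.P057.main_all n k hn hk c hc

end Vale.Agent.Results.P057.A_allk
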